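import Vale.Agent.P162.Bdl.B1

namespace Vale.Agent.Results.P162.AllEven

open Vale.Agent.P162

/-- The mixing time of the Thorp shuffle of `n = 2 m` cards is of order `log n`, for every
`m ≥ 1`. -/
theorem result : ∃ c C : ℝ, 0 < c ∧ ∀ m : ℕ, 1 ≤ m →
    c * Real.log ((2 * m : ℕ) : ℝ) ≤ (tmix m : ℝ) ∧
    (tmix m : ℝ) ≤ C * Real.log ((2 * m : ℕ) : ℝ) ∧
    ∀ t : ℕ, tmix m ≤ t → tvUnif (convPow (thorpLaw m) t) ≤ 1 / 4 :=
  Ring.all_even_log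

end Vale.Agent.Results.P162.AllEven
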